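import Mathlib

/-!
# P202, equal characteristic zero: coefficient fields of complete local rings

Every field mapping to a complete local ring with residue field of characteristic zero is contained
in a coefficient field.
-/

noncomputable section

namespace Vale.Agent.P202.Zero

open IsLocalRing Polynomial

section Field

variable {R : Type*} [CommRing R]

/-- A subring all of whose nonzero elements are invertible inside it. -/
def IsFieldLike (S : Subring R) : Prop := ∀ a ∈ S, a ≠ 0 → ∃ b ∈ S, a * b = 1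

/-- The fractions of a subring all of whose nonzero elements are units. -/
theorem exists_isFieldLike_ge (T : Subring R) (hT : ∀ a ∈ T, a ≠ 0 → IsUnit a) :
    ∃ S : Subring R, T ≤ S ∧ IsFieldLike S := by
  let S : Subring R :=
    { carrier := {r | ∃ q ∈ T, IsUnit q ∧ r * q ∈ T}
      one_mem' := ⟨1, T.one_mem, isUnit_one, by simp [T.one_mem]⟩
      zero_mem' := ⟨1, T.one_mem, isUnit_one, by simp [T.zero_mem]⟩
      mul_mem' := by
        rintro a b ⟨q, hq, hqu, ha⟩ ⟨q', hq', hqu', hb⟩
        exact ⟨q * q', T.mul_mem hq hq', hqu.mul hqu',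
          (mul_mul_mul_comm a b q q').symm ▸ T.mul_mem ha hb⟩
      add_mem' := by
        rintro a b ⟨q, hq, hqu, ha⟩ ⟨q', hq', hqu', hb⟩
        refine ⟨q * q', T.mul_mem hq hq', hqu.mul hqu', ?_⟩
        rw [show (a + b) * (q * q') = a * q * q' + b * q' * q by ring]
        exact T.add_mem (T.mul_mem ha hq') (T.mul_mem hb hq)
      neg_mem' := by
        rintro a ⟨q, hq, hqu, ha⟩
        exact ⟨q, hq, hqu, by rw [neg_mul]; exact T.neg_mem ha⟩ }
  refine ⟨S, fun a ha => ⟨1, T.one_mem, isUnit_one, by rwa [mul_one]⟩, ?_⟩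
  rintro a ⟨q, hq, hqu, ha⟩ ha0
  have hne : a * q ≠ 0 := fun h => ha0 (hqu.mul_left_eq_zero.1 h)
  obtain ⟨u, hu⟩ := hT _ ha hne
  have hau : a * (q * ↑u⁻¹) = 1 := by rw [← mul_assoc, ← hu, Units.mul_inv]
  refine ⟨q * ↑u⁻¹, ⟨a * q, ha, ⟨u, hu⟩, ?_⟩, hau⟩
  rw [mul_assoc, ← hu, Units.inv_mul, mul_one]
  exact hq

theorem isFieldLike_range {K : Type*} [Field K] (ι : K →+* R) : IsFieldLike ι.range := by
  rintro _ ⟨c, rfl⟩ hc
  exact ⟨ι c⁻¹, ⟨c⁻¹, rfl⟩, by
    rw [← map_mul, mul_inv_cancel₀ fun h => hc (by rw [h, map_zero]), map_one]⟩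

/-- Field like subrings are inductive. -/
theorem exists_maximal_isFieldLike (S₀ : Subring R) (h₀ : IsFieldLike S₀) :
    ∃ S : Subring R, S₀ ≤ S ∧ IsFieldLike S ∧
      ∀ S' : Subring R, IsFieldLike S' → S ≤ S' → S' ≤ S := by
  have hub : ∀ c ⊆ {S : Subring R | IsFieldLike S}, IsChain (· ≤ ·) c → ∀ y ∈ c,
      ∃ ub ∈ {S : Subring R | IsFieldLike S}, ∀ z ∈ c, z ≤ ub := by
    intro c hc hch y hy
    refine ⟨sSup c, ?_, fun z hz => le_sSup hz⟩
    intro a ha ha0
    obtain ⟨S, hS, haS⟩ := (Subring.mem_sSup_of_directedOn ⟨y, hy⟩ hch.directedOn).1 ha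
    obtain ⟨b, hb, hab⟩ := hc hS a haS ha0
    exact ⟨b, (Subring.mem_sSup_of_directedOn ⟨y, hy⟩ hch.directedOn).2 ⟨S, hS, hb⟩, hab⟩
  obtain ⟨S, hle, hmax⟩ := zorn_le_nonempty₀ {S : Subring R | IsFieldLike S} hub S₀ h₀
  exact ⟨S, hle, hmax.prop, fun S' h h' => hmax.le_of_ge h h'⟩

end Field

variable {R : Type*} [CommRing R] [IsLocalRing R]

/-- A simple root of a monic polynomial in the residue field lifts. -/
theorem exists_root_lift [IsAdicComplete (maximalIdeal R) R] (f : R[X]) (hf : f.Monic)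
    (x : ResidueField R) (h0 : (f.map (residue R)).eval x = 0)
    (h1 : (f.map (residue R)).derivative.eval x ≠ 0) :
    ∃ a : R, f.eval a = 0 ∧ residue R a = x := by
  obtain ⟨a₀, rfl⟩ := residue_surjective x
  rw [eval_map, eval₂_at_apply] at h0
  rw [derivative_map, eval_map, eval₂_at_apply] at h1
  obtain ⟨a, ha, hsub⟩ := HenselianRing.is_henselian (I := maximalIdeal R) f hf a₀
    ((residue_eq_zero_iff _).1 h0) (IsUnit.map _ (IsLocalRing.notMem_maximalIdeal.1 fun h =>
      h1 ((residue_eq_zero_iff _).2 h)))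
  exact ⟨a, ha, sub_eq_zero.1 ((map_sub _ _ _).symm.trans ((residue_eq_zero_iff _).2 hsub))⟩

/-- Every field mapping to a complete local ring with residue field of characteristic zero is
contained in a coefficient field. -/
theorem exists_coefficientField [IsAdicComplete (maximalIdeal R) R] [CharZero (ResidueField R)]
    {K : Type*} [Field K] (ι : K →+* R) :
    ∃ τ : ResidueField R →+* R, (∀ x, residue R (τ x) = x) ∧
      τ.comp ((residue R).comp ι) = ι := by
  obtain ⟨S, hS0, hS, hmax⟩ := exists_maximal_isFieldLike ι.range (isFieldLike_range ι)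
  have hinj : ∀ a ∈ S, residue R a = 0 → a = 0 := fun a ha h => by
    by_contra ha0
    obtain ⟨b, -, hab⟩ := hS a ha ha0
    exact one_ne_zero (α := ResidueField R)
      (by rw [← map_one (residue R), ← hab, map_mul, h, zero_mul])
  let ρ : S →+* ResidueField R := (residue R).comp S.subtype
  have hρ : Function.Injective ρ := (injective_iff_map_eq_zero ρ).2 fun a h =>
    Subtype.ext (hinj a.1 a.2 h)
  let k₀ : Subfield (ResidueField R) :=
    { ρ.range with
      inv_mem' := by
        rintro _ ⟨a, rfl⟩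
        by_cases ha : (a : R) = 0
        · exact ⟨0, by simp [ρ, ha]⟩
        · obtain ⟨b, hb, hab⟩ := hS a a.2 ha
          refine ⟨⟨b, hb⟩, ?_⟩
          symm
          rw [inv_eq_of_mul_eq_one_right]
          show residue R a * residue R b = 1
          rw [← map_mul, hab, map_one] }
  have hk : ∀ x : ResidueField R, x ∈ k₀ ↔ ∃ a ∈ S, residue R a = x := fun x =>
    ⟨fun ⟨a, ha⟩ => ⟨a, a.2, ha⟩, fun ⟨a, ha, h⟩ => ⟨⟨a, ha⟩, h⟩⟩
  let eρ : k₀ ≃+* S := (RingEquiv.ofLeftInverse
    (Function.leftInverse_invFun hρ)).symm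
  let j : k₀ →+* R := S.subtype.comp eρ.toRingHom
  have hjS : ∀ c, j c ∈ S := fun c => (eρ c).2
  have hjres : (residue R).comp j = algebraMap k₀ (ResidueField R) := RingHom.ext fun c =>
    congrArg Subtype.val (eρ.symm_apply_apply c)
  have : CharZero k₀ := (algebraMap k₀ (ResidueField R)).charZero
  have hall : ∀ x, x ∈ k₀ := by
    intro x
    set f := minpoly k₀ x with hf
    obtain ⟨a, ha0, hax⟩ : ∃ a, eval₂ j a f = 0 ∧ residue R a = x := by
      by_cases halg : IsIntegral k₀ x
      · obtain ⟨a, ha, hax⟩ := exists_root_lift (f.map j) ((minpoly.monic halg).map j) x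
          (by rw [Polynomial.map_map, hjres, eval_map, ← aeval_def, minpoly.aeval])
          (by
            rw [Polynomial.map_map, hjres, derivative_map, eval_map, ← aeval_def]
            exact (minpoly.irreducible halg).separable.aeval_derivative_ne_zero
              (minpoly.aeval k₀ x))
        exact ⟨a, by rwa [eval_map] at ha, hax⟩
      · obtain ⟨a, ha⟩ := residue_surjective x
        exact ⟨a, by rw [hf, minpoly.eq_zero halg, eval₂_zero], ha⟩
    have hev : ∀ g : k₀[X], residue R (eval₂ j a g) = aeval x g := fun g => by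
      rw [hom_eval₂, hjres, hax, aeval_def]
    obtain ⟨S', hle, hS'⟩ := exists_isFieldLike_ge (eval₂RingHom j a).range (by
      rintro _ ⟨g, rfl⟩ hg
      rw [coe_eval₂RingHom] at hg ⊢
      by_contra hu
      have h0 : aeval x g = 0 :=
        (hev g).symm.trans ((residue_eq_zero_iff _).2 ((IsLocalRing.mem_maximalIdeal _).2 hu))
      obtain ⟨q, rfl⟩ := minpoly.dvd k₀ x h0
      exact hg (by rw [eval₂_mul, ← hf, ha0, zero_mul]))
    have haS : a ∈ S := by
      refine hmax S' hS' (fun s hs => hle ?_) (hle ⟨X, by simp⟩)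
      refine ⟨C ⟨ρ ⟨s, hs⟩, (hk _).2 ⟨s, hs, rfl⟩⟩, ?_⟩
      rw [coe_eval₂RingHom, eval₂_C]
      exact congrArg Subtype.val
        (hρ (congrArg Subtype.val (eρ.symm_apply_apply ⟨ρ ⟨s, hs⟩, _⟩)) : eρ _ = ⟨s, hs⟩)
    exact (hk x).2 ⟨a, haS, hax⟩
  refine ⟨j.comp ((RingHom.id _).codRestrict k₀ hall), fun x => ?_, RingHom.ext fun c => ?_⟩
  · exact RingHom.congr_fun hjres _
  · have hc : ι c ∈ S := hS0 ⟨c, rfl⟩
    refine sub_eq_zero.1 (hinj _ (S.sub_mem (hjS _) hc) ?_)
    rw [map_sub, sub_eq_zero]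
    exact RingHom.congr_fun hjres _

/-- A complete local ring containing the rational numbers has a coefficient field. -/
theorem exists_coefficientField' (R : Type*) [CommRing R] [IsLocalRing R]
    [IsAdicComplete (maximalIdeal R) R] [Algebra ℚ R] :
    ∃ τ : ResidueField R →+* R, ∀ x, residue R (τ x) = x := by
  have : CharZero (ResidueField R) :=
    charZero_of_injective_ringHom ((residue R).comp (algebraMap ℚ R)).injective
  obtain ⟨τ, hτ, -⟩ := exists_coefficientField (algebraMap ℚ R)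
  exact ⟨τ, hτ⟩

end Vale.Agent.P202.Zero
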