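import Vale.Agent.P202.Reduce.General
import Vale.Agent.P202.Zero.Reduce.CoeffField

/-!
# P202, equal characteristic zero: from finite maps of complete rings to all flat local maps

Lech's inequality for module-finite flat maps out of complete rings containing the rational numbers
with algebraically closed residue field implies it for all flat local maps out of rings containing
the rational numbers.
-/

noncomputable section

namespace Vale.Agent.P202.Zero

open IsLocalRing Filter
open scoped ENNReal

universe u

/-- The completion, with the extension of local maps to complete local rings. -/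
theorem exists_completion_lift (R : Type u) [CommRing R] [IsNoetherianRing R] [IsLocalRing R]
    [Algebra ℚ R] :
    ∃ (A : Type u) (_ : CommRing A) (_ : IsLocalRing A) (_ : IsNoetherianRing A)
      (_ : IsAdicComplete (maximalIdeal A) A) (_ : Algebra ℚ A) (f : R →+* A),
      IsLocalHom f ∧ f.Flat ∧ (maximalIdeal R).map f = maximalIdeal A ∧
      (∃ e : ResidueField R →+* ResidueField A, Function.Bijective e ∧
        e.comp (residue R) = (residue A).comp f) ∧
      ∀ (B : Type u) [CommRing B] [IsLocalRing B] [IsAdicComplete (maximalIdeal B) B]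
        (g : R →+* B), (∀ a ∈ maximalIdeal R, g a ∈ maximalIdeal B) →
        ∃ ψ : A →+* B, ψ.comp f = g := by
  set A := AdicCompletion (maximalIdeal R) R
  let iQ : Algebra ℚ A := ((algebraMap R A).comp (algebraMap ℚ R)).toAlgebra
  obtain ⟨σ, hσ⟩ := exists_coefficientField' A
  obtain ⟨n, x, hx⟩ := Submodule.fg_iff_exists_fin_generating_family.1
    (IsNoetherian.noetherian (maximalIdeal R))
  have hmax : maximalIdeal A = Ideal.span (Set.range fun i => algebraMap R A (x i)) := by
    refine AdicCompletion.maximalIdeal_eq_map.trans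
      ((congrArg (Ideal.map (algebraMap R A)) hx).symm.trans ?_)
    show Ideal.map (algebraMap R A) (Ideal.span (Set.range x)) = _
    rw [Ideal.map_span, ← Set.range_comp]
    rfl
  obtain ⟨φ, hC, hX, -⟩ := exists_evalHom σ (fun i => algebraMap R A (x i))
    fun i => hmax ▸ Ideal.subset_span (Set.mem_range_self i)
  have hN : IsNoetherianRing A := isNoetherianRing_of_surjective _ _ φ
    (surjective_powerSeriesHom φ (fun a => ⟨residue A a, by
      rw [← residue_eq_zero_iff, map_sub, hC, hσ, sub_self]⟩) (by simpa only [hX] using hmax))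
  refine ⟨A, inferInstance, inferInstance, hN, inferInstance, iQ, algebraMap R A, inferInstance,
    RingHom.flat_algebraMap_iff.2 inferInstance, AdicCompletion.maximalIdeal_eq_map.symm,
    ⟨ResidueField.map (algebraMap R A), AdicCompletion.residueField_map_bijective R,
    RingHom.ext fun _ => rfl⟩, ?_⟩
  intro B _ _ _ g hg
  have hle : ∀ N, maximalIdeal R ^ N ≤ (maximalIdeal B ^ N).comap g := fun N =>
    Ideal.map_le_iff_le_comap.1 <| by
      rw [Ideal.map_pow]
      exact Ideal.pow_right_mono (Ideal.map_le_iff_le_comap.2 hg) N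
  let F : (N : ℕ) → A →+* B ⧸ maximalIdeal B ^ N := fun N =>
    (Ideal.quotientMap (maximalIdeal B ^ N) g (hle N)).comp
      (AdicCompletion.evalₐ (maximalIdeal R) N).toRingHom
  have hF : ∀ {i N : ℕ} (h : i ≤ N),
      (Ideal.Quotient.factorPow (maximalIdeal B) h).comp (F N) = F i := by
    intro i N h
    refine RingHom.ext fun y => ?_
    induction y using AdicCompletion.induction_on with
    | _ y =>
      simp only [F, RingHom.comp_apply, AlgHom.toRingHom_eq_coe, RingHom.coe_coe]
      rw [show AdicCompletion.evalₐ (maximalIdeal R) N (AdicCompletion.mk (maximalIdeal R) R y) =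
          Ideal.Quotient.mk (maximalIdeal R ^ N) (y.1 N) from AdicCompletion.evalₐ_mk _ _ _,
        show AdicCompletion.evalₐ (maximalIdeal R) i (AdicCompletion.mk (maximalIdeal R) R y) =
          Ideal.Quotient.mk (maximalIdeal R ^ i) (y.1 i) from AdicCompletion.evalₐ_mk _ _ _,
        Ideal.quotientMap_mk, Ideal.quotientMap_mk, factorPow_mk, Ideal.Quotient.eq, ← map_sub]
      refine hle i ?_
      have := SModEq.sub_mem.1 (y.2 h)
      rw [smul_eq_mul, Ideal.mul_top] at this
      exact neg_sub (y.1 i) (y.1 N) ▸ neg_mem this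
  refine ⟨IsAdicComplete.liftRingHom (maximalIdeal B) F hF, RingHom.ext fun a => ?_⟩
  refine sub_eq_zero.1 (IsHausdorff.haus' (I := maximalIdeal B) _ fun N => ?_)
  rw [SModEq.zero, smul_eq_mul, Ideal.mul_top, ← Ideal.Quotient.eq, RingHom.comp_apply,
    IsAdicComplete.mk_liftRingHom]
  simp only [F, RingHom.comp_apply, AlgHom.toRingHom_eq_coe, RingHom.coe_coe]
  rw [AlgHom.commutes, Ideal.Quotient.algebraMap_eq, Ideal.quotientMap_mk]

/-- A complete cover with algebraically closed residue field and the same maximal ideal. -/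
theorem exists_cover (S : Type u) [CommRing S] [IsNoetherianRing S] [IsLocalRing S] [Algebra ℚ S] :
    ∃ (B : Type u) (_ : CommRing B) (_ : IsLocalRing B) (_ : IsNoetherianRing B)
      (_ : IsAdicComplete (maximalIdeal B) B) (L : Type u) (_ : Field L) (_ : IsAlgClosed L)
      (τ : L →+* B) (f : S →+* B),
      IsLocalHom f ∧ f.Flat ∧ (maximalIdeal S).map f = maximalIdeal B ∧
      Function.Bijective ((residue B).comp τ) := by
  obtain ⟨A, iA, iAl, iAn, iAc, iAp, f, hfl, hff, hfm, -, -⟩ := exists_completion_lift S
  obtain ⟨σ, hσ⟩ := exists_coefficientField' A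
  have hσb : Function.Bijective ((residue A).comp σ) := by
    rw [show (residue A).comp σ = RingHom.id _ from RingHom.ext hσ]
    exact Function.bijective_id
  obtain ⟨B, iB, iBl, iBn, iBc, f', τ, hl', hf', hm', hτ, -, -⟩ :=
    exists_gonflement (L := AlgebraicClosure (ResidueField A)) σ hσb
  refine ⟨B, iB, iBl, iBn, iBc, AlgebraicClosure (ResidueField A), inferInstance, inferInstance,
    τ, f'.comp f, ?_, hff.comp hf', ?_, hτ⟩
  · exact RingHom.isLocalHom_comp f' f
  · rw [← Ideal.map_map, hfm, hm']

/-- Lech's inequality for finite maps out of complete rings containing the rational numbers with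
algebraically closed residue field. -/
def FiniteLech : Prop :=
  ∀ (A : Type u) [CommRing A] [IsNoetherianRing A] [IsLocalRing A] [Algebra ℚ A]
    [IsAdicComplete (maximalIdeal A) A] [IsAlgClosed (ResidueField A)]
    (B : Type u) [CommRing B] [IsLocalRing B] [Algebra A B]
      [IsLocalHom (algebraMap A B)] [Module.Finite A B] [Module.Flat A B],
      limsup (hsSeq A) atTop ≤ liminf (hsSeq B) atTop

/-- The case of a complete target with finite length fibre and algebraically closed coefficient
field. -/
theorem lech_of_primary (hmain : FiniteLech.{u})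
    (R : Type u) [CommRing R] [IsNoetherianRing R] [IsLocalRing R] [Algebra ℚ R]
    (T : Type u) [CommRing T] [IsLocalRing T]
    [IsNoetherianRing T] [IsAdicComplete (maximalIdeal T) T] [IsAlgClosed (ResidueField T)]
    (g : R →+* T) (hloc : IsLocalHom g) (hflat : g.Flat) {r : ℕ}
    (hr : maximalIdeal T ^ r ≤ (maximalIdeal R).map g) :
    limsup (hsSeq R) atTop ≤ liminf (hsSeq T) atTop := by
  obtain ⟨A, iA, iAl, iAn, iAc, iAp, fR, hRl, hRf, hRm, ⟨e, he, hecomp⟩, hlift⟩ :=
    exists_completion_lift R
  have hgm : (maximalIdeal R).map g ≤ maximalIdeal T :=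
    ((IsLocalRing.local_hom_TFAE g).out 0 2).1 hloc
  obtain ⟨gA, hgA⟩ := hlift T g fun a ha => hgm (Ideal.mem_map_of_mem g ha)
  obtain ⟨σ₀, hσ₀⟩ := exists_coefficientField' A
  let σ : ResidueField R →+* A := σ₀.comp e
  have hσ : Function.Bijective ((residue A).comp σ) := by
    rw [show (residue A).comp σ = e from RingHom.ext fun x => hσ₀ (e x)]
    exact he
  have : CharZero (ResidueField T) :=
    charZero_of_injective_ringHom ((residue T).comp (g.comp (algebraMap ℚ R))).injective
  obtain ⟨τ, hτ₀, hτext⟩ := exists_coefficientField (gA.comp σ)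
  have hτ : Function.Bijective ((residue T).comp τ) := by
    rw [show (residue T).comp τ = RingHom.id _ from RingHom.ext hτ₀]
    exact Function.bijective_id
  let : Algebra (ResidueField R) (ResidueField T) :=
    ((residue T).comp (gA.comp σ)).toAlgebra
  have hcompat : gA.comp σ = τ.comp (algebraMap (ResidueField R) (ResidueField T)) := hτext.symm
  obtain ⟨A', iA', iA'l, iA'n, iA'c, f', τ', hl', hf', hm', hτ', -, huniv⟩ :=
    exists_gonflement (L := ResidueField T) σ hσ
  have hgAm : ∀ a ∈ maximalIdeal A, gA a ∈ maximalIdeal T := by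
    rw [← hRm]
    exact fun a ha => (show ((maximalIdeal R).map fR).map gA ≤ maximalIdeal T by
      rwa [Ideal.map_map, hgA]) (Ideal.mem_map_of_mem gA ha)
  obtain ⟨Φ, hΦf, hΦτ⟩ := huniv T gA τ hgAm hcompat
  let f : R →+* A' := f'.comp fR
  have hfl : IsLocalHom f := RingHom.isLocalHom_comp f' fR
  have hff : f.Flat := hRf.comp hf'
  have hfm : (maximalIdeal R).map f = maximalIdeal A' := by
    rw [← Ideal.map_map, hRm, hm']
  have hΦg : Φ.comp f = g := by rw [← RingHom.comp_assoc, hΦf, hgA]
  have hΦmap : (maximalIdeal A').map Φ = (maximalIdeal R).map g := by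
    rw [← hfm, Ideal.map_map, hΦg]
  let : Algebra ℚ A' := (f.comp (algebraMap ℚ R)).toAlgebra
  have : IsAlgClosed (ResidueField A') :=
    IsAlgClosed.of_ringEquiv (ResidueField T) (ResidueField A') (RingEquiv.ofBijective _ hτ')
  have hfin : Φ.Finite := by
    obtain ⟨s, φ, -, hC, hXm, hgen, -⟩ := exists_presentation τ' hτ'
    refine RingHom.Finite.of_comp_finite (f := φ) ?_
    refine finite_of_powerSeriesHom (Φ.comp φ) (fun a => ?_) (fun i => ?_) (r := r) ?_
    · obtain ⟨c, hc⟩ := hτ.2 (residue T a)
      refine ⟨c, ?_⟩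
      rw [RingHom.comp_apply, hC, ← RingHom.comp_apply Φ, hΦτ, ← residue_eq_zero_iff, map_sub,
        ← hc, RingHom.comp_apply, sub_self]
    · exact (hΦmap ▸ hgm) (Ideal.mem_map_of_mem Φ (hXm i))
    · refine hr.trans ?_
      rw [← hΦmap, hgen, Ideal.map_span, ← Set.range_comp]
      rfl
  have hΦflat : Φ.Flat := flat_of_finite_of_flat f hfm Φ hfin (hΦg ▸ hflat)
  algebraize [Φ]
  have : Module.Finite A' T := hfin
  have : Module.Flat A' T := hΦflat
  have : IsLocalHom (algebraMap A' T) :=
    ((IsLocalRing.local_hom_TFAE (algebraMap A' T)).out 0 2).2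
      (show (maximalIdeal A').map Φ ≤ maximalIdeal T from hΦmap ▸ hgm)
  rw [← hsSeq_eq_of_flat_map_maximal f hff hfl hfm]
  exact hmain A' T

/-- The reduction of Lech's inequality in equal characteristic zero to module-finite maps out of
complete rings with algebraically closed residue field. -/
theorem lech_of_main (hmain : FiniteLech.{u})
    (R : Type u) [CommRing R] [IsNoetherianRing R] [IsLocalRing R] [Algebra ℚ R]
    (S : Type u) [CommRing S] [IsNoetherianRing S]
    [IsLocalRing S] [Algebra R S] [IsLocalHom (algebraMap R S)] [Module.Flat R S] :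
    limsup (hsSeq R) atTop ≤ liminf (hsSeq S) atTop := by
  let : Algebra ℚ S := ((algebraMap R S).comp (algebraMap ℚ R)).toAlgebra
  obtain ⟨B, iB, iBl, iBn, iBc, L, iL, iLa, τ, fS, hSl, hSf, hSm, hτ⟩ := exists_cover S
  rw [← hsSeq_eq_of_flat_map_maximal fS hSf hSl hSm]
  let g : R →+* B := fS.comp (algebraMap R S)
  have hgl : IsLocalHom g := RingHom.isLocalHom_comp fS (algebraMap R S)
  have hgf : g.Flat := (RingHom.flat_algebraMap_iff.2 inferInstance).comp hSf
  obtain ⟨P, hP, hmP, hmin, hdim⟩ := exists_prime_over g hgl hgf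
  refine le_trans ?_ (limsup_hsSeq_atPrime_le τ hτ P hdim)
  let BP := Localization.AtPrime P
  let gP : R →+* BP := (algebraMap B BP).comp g
  have hgPl : IsLocalHom gP := by
    refine ((IsLocalRing.local_hom_TFAE gP).out 0 2).2 ?_
    rw [← Ideal.map_map, ← Localization.AtPrime.map_eq_maximalIdeal]
    exact Ideal.map_mono hmP
  have hgPf : gP.Flat :=
    hgf.comp (RingHom.flat_algebraMap_iff.2 (IsLocalization.flat BP P.primeCompl))
  let : Algebra ℚ BP := (gP.comp (algebraMap ℚ R)).toAlgebra
  obtain ⟨r, hr⟩ : ∃ r, maximalIdeal BP ^ r ≤ (maximalIdeal R).map gP := by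
    refine exists_pow_le_of_forall_prime_eq _ fun Q hQ hle => ?_
    have hdisj := (IsLocalization.isPrime_iff_isPrime_disjoint P.primeCompl BP Q).1 hQ
    have hQP : Q.comap (algebraMap B BP) ≤ P := fun x hx => by
      by_contra hxP
      exact Set.disjoint_left.1 hdisj.2 hxP hx
    have heq := hmin _ hdisj.1
      (Ideal.map_le_iff_le_comap.1 (by rw [Ideal.map_map]; exact hle)) hQP
    rw [← IsLocalization.map_under P.primeCompl BP Q, ← Localization.AtPrime.map_eq_maximalIdeal]
    exact congrArg (Ideal.map (algebraMap B BP)) heq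
  obtain ⟨T, iT, iTl, iTn, iTc, L', iL', iL'a, τ', fT, hTl, hTf, hTm, hτ'⟩ := exists_cover BP
  refine le_trans ?_ (liminf_le_limsup)
  rw [← hsSeq_eq_of_flat_map_maximal fT hTf hTl hTm]
  have : IsAlgClosed (ResidueField T) :=
    IsAlgClosed.of_ringEquiv L' (ResidueField T) (RingEquiv.ofBijective _ hτ')
  refine lech_of_primary hmain R T (fT.comp gP) (RingHom.isLocalHom_comp fT gP)
    (hgPf.comp hTf) (r := r) ?_
  rw [← hTm, ← Ideal.map_map, ← Ideal.map_pow]
  exact Ideal.map_mono hr

end Vale.Agent.P202.Zero
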